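import Vale.Agent.P309.Bdl.B1
import Vale.Agent.P309.H362.Defs

/-!
# P309: learners with unlimited memory need `d / 4` samples
-/

open MeasureTheory ProbabilityTheory Metric Set
open scoped ENNReal NNReal RealInnerProductSpace Pointwise

namespace P309.H596

section sphere

variable {E : Type*} [NormedAddCommGroup E] [InnerProductSpace ℝ E] [FiniteDimensional ℝ E]
  [MeasurableSpace E] [BorelSpace E]

/-- The uniform probability measure of the sphere is invariant under linear isometries. -/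
theorem sphereProb_map [Nontrivial E] (R : E ≃ₗᵢ[ℝ] E) : (sphereProb E).map R = sphereProb E := by
  ext A hA
  have hm : Measurable R := R.continuous.measurable
  rw [Measure.map_apply hm hA, sphereProb_eq_cone (hm hA), sphereProb_eq_cone hA]
  congr 1
  have h1 : Ioo (0 : ℝ) 1 • ((R ⁻¹' A) ∩ sphere (0 : E) 1) =
      R ⁻¹' (Ioo (0 : ℝ) 1 • (A ∩ sphere (0 : E) 1)) := by
    ext x
    simp only [Set.mem_smul, mem_preimage, mem_inter_iff, mem_sphere_iff_norm, sub_zero]
    constructor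
    · rintro ⟨t, ht, y, ⟨hy, hy1⟩, rfl⟩
      exact ⟨t, ht, R y, ⟨hy, by rw [R.norm_map]; exact hy1⟩, by rw [map_smul]⟩
    · rintro ⟨t, ht, y, ⟨hy, hy1⟩, hxy⟩
      refine ⟨t, ht, R.symm y, ⟨by rw [R.apply_symm_apply]; exact hy, by
        rw [R.symm.norm_map]; exact hy1⟩, ?_⟩
      rw [← map_smul, hxy, R.symm_apply_apply]
  rw [h1]
  exact (R.measurePreserving).measure_preimage_emb (R.toHomeomorph.measurableEmbedding) _

theorem lintegral_sphereProb_comp [Nontrivial E] (R : E ≃ₗᵢ[ℝ] E) {f : E → ℝ≥0∞}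
    (hf : Measurable f) : ∫⁻ s, f (R s) ∂(sphereProb E) = ∫⁻ s, f s ∂(sphereProb E) := by
  conv_rhs => rw [← sphereProb_map R]
  rw [lintegral_map hf R.continuous.measurable]

omit [FiniteDimensional ℝ E] [MeasurableSpace E] [BorelSpace E] in
/-- two vectors of the same norm are exchanged by an isometry -/
theorem exists_isom {u v : E} (h : ‖u‖ = ‖v‖) : ∃ R : E ≃ₗᵢ[ℝ] E, R u = v := by
  refine ⟨(ℝ ∙ (u - v))ᗮ.reflection, ?_⟩
  exact Submodule.reflection_sub h

theorem ae_norm_eq_one : ∀ᵐ s ∂(sphereProb E), ‖s‖ = 1 := by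
  rw [ae_iff]
  refine measure_mono_null ?_ (sphereProb_compl_sphere (E := E))
  intro s hs hs'
  exact hs (by simpa using hs')

/-- second moment of a coordinate -/
theorem moment [Nontrivial E] (u : E) (hu : ‖u‖ = 1) :
    ∫⁻ s, ENNReal.ofReal (⟪u, s⟫ ^ 2) ∂(sphereProb E) =
      ((Module.finrank ℝ E : ℕ) : ℝ≥0∞)⁻¹ := by
  have hmeas : ∀ v : E, Measurable fun s : E => ENNReal.ofReal (⟪v, s⟫ ^ 2) := fun v => by
    apply ENNReal.measurable_ofReal.comp
    exact (Continuous.measurable (by fun_prop))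
  have hsame : ∀ v : E, ‖v‖ = 1 → ∫⁻ s, ENNReal.ofReal (⟪v, s⟫ ^ 2) ∂(sphereProb E) =
      ∫⁻ s, ENNReal.ofReal (⟪u, s⟫ ^ 2) ∂(sphereProb E) := by
    intro v hv
    obtain ⟨R, hR⟩ := exists_isom (u := u) (v := v) (by rw [hu, hv])
    rw [← lintegral_sphereProb_comp R (hmeas v)]
    refine lintegral_congr fun s => ?_
    rw [← hR, R.inner_map_map]
  set b := stdOrthonormalBasis ℝ E with hb
  have hsum : ∑ i, ∫⁻ s, ENNReal.ofReal (⟪b i, s⟫ ^ 2) ∂(sphereProb E) = 1 := by
    rw [← lintegral_finsetSum _ fun i _ => hmeas (b i)]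
    have h1 : ∫⁻ s, ∑ i, ENNReal.ofReal (⟪b i, s⟫ ^ 2) ∂(sphereProb E) =
        ∫⁻ _, 1 ∂(sphereProb E) := by
      refine lintegral_congr_ae ?_
      filter_upwards [ae_norm_eq_one (E := E)] with s hs
      rw [← ENNReal.ofReal_sum_of_nonneg fun i _ => sq_nonneg _]
      have h2 : ∑ i, ⟪b i, s⟫ ^ 2 = ‖s‖ ^ 2 := by
        have := b.sum_sq_norm_inner_right s
        simpa [Real.norm_eq_abs, sq_abs] using this
      rw [h2, hs]
      simp
    rw [h1, lintegral_one, measure_univ]
  have h3 : ∑ i, ∫⁻ s, ENNReal.ofReal (⟪b i, s⟫ ^ 2) ∂(sphereProb E) =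
      (Module.finrank ℝ E : ℝ≥0∞) * ∫⁻ s, ENNReal.ofReal (⟪u, s⟫ ^ 2) ∂(sphereProb E) := by
    rw [Finset.sum_congr rfl fun i _ => hsame (b i) (b.orthonormal.1 i), Finset.sum_const,
      Finset.card_univ, Fintype.card_fin, nsmul_eq_mul]
  rw [h3] at hsum
  exact ENNReal.eq_inv_of_mul_eq_one_left (by rw [mul_comm]; exact hsum)

/-- second moment of the projection to a subspace -/
theorem moment_proj [Nontrivial E] (V : Submodule ℝ E) :
    ∫⁻ s, ENNReal.ofReal (‖V.starProjection s‖ ^ 2) ∂(sphereProb E) =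
      (Module.finrank ℝ V : ℝ≥0∞) * ((Module.finrank ℝ E : ℕ) : ℝ≥0∞)⁻¹ := by
  have hmeas : ∀ v : E, Measurable fun s : E => ENNReal.ofReal (⟪v, s⟫ ^ 2) := fun v => by
    apply ENNReal.measurable_ofReal.comp
    exact (Continuous.measurable (by fun_prop))
  set b := stdOrthonormalBasis ℝ V with hb
  have h1 : ∀ s : E, ENNReal.ofReal (‖V.starProjection s‖ ^ 2) =
      ∑ i, ENNReal.ofReal (⟪(b i : E), s⟫ ^ 2) := by
    intro s
    rw [← ENNReal.ofReal_sum_of_nonneg fun i _ => sq_nonneg _]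
    congr 1
    have h2 : ∑ i, ⟪b i, V.orthogonalProjectionOnto s⟫ ^ 2 = ‖V.orthogonalProjectionOnto s‖ ^ 2 := by
      have := b.sum_sq_norm_inner_right (V.orthogonalProjectionOnto s)
      simpa [Real.norm_eq_abs, sq_abs] using this
    have h3 : ‖V.starProjection s‖ = ‖V.orthogonalProjectionOnto s‖ := rfl
    rw [h3, ← h2]
    refine Finset.sum_congr rfl fun i _ => ?_
    rw [Submodule.coe_inner]
    congr 1
    have h4 := Submodule.inner_orthogonalProjectionOnto_eq_of_mem_left (K := V) (b i) s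
    exact h4
  simp_rw [h1]
  rw [lintegral_finsetSum _ fun i _ => hmeas _]
  rw [Finset.sum_congr rfl fun i _ => moment (b i : E) (by
    exact b.orthonormal.1 i), Finset.sum_const, Finset.card_univ, Fintype.card_fin, nsmul_eq_mul]

/-- the signal is far from its reflection -/
theorem reflection_far [Nontrivial E] (V : Submodule ℝ E) {ε : ℝ} (hε0 : 0 ≤ ε) (hε1 : ε < 1) :
    sphereProb E {s | dist s (V.reflection s) ≤ 2 * ε} ≤
      (Module.finrank ℝ V : ℝ≥0∞) * ((Module.finrank ℝ E : ℕ) : ℝ≥0∞)⁻¹ *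
        (ENNReal.ofReal (1 - ε ^ 2))⁻¹ := by
  have hpos : 0 < 1 - ε ^ 2 := by nlinarith
  have hm : Measurable fun s : E => ENNReal.ofReal (‖V.starProjection s‖ ^ 2) := by
    apply ENNReal.measurable_ofReal.comp
    exact (Continuous.measurable (by fun_prop))
  have h1 : sphereProb E {s | dist s (V.reflection s) ≤ 2 * ε} ≤
      sphereProb E {s | ENNReal.ofReal (1 - ε ^ 2) ≤ ENNReal.ofReal (‖V.starProjection s‖ ^ 2)} := by
    apply measure_mono_ae
    filter_upwards [ae_norm_eq_one (E := E)] with s hs hd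
    change dist s (V.reflection s) ≤ 2 * ε at hd
    change ENNReal.ofReal (1 - ε ^ 2) ≤ ENNReal.ofReal (‖V.starProjection s‖ ^ 2)
    apply ENNReal.ofReal_le_ofReal
    have h2 : s - V.reflection s = (2 : ℝ) • (s - V.starProjection s) := by
      rw [Submodule.reflection_apply, smul_sub, two_smul ℝ s, two_smul, two_smul]
      abel
    rw [dist_eq_norm, h2, norm_smul, Real.norm_eq_abs, abs_of_pos (by norm_num : (0 : ℝ) < 2)] at hd
    have h3 : ‖s - V.starProjection s‖ ≤ ε := by linarith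
    have h4 : ‖s‖ ^ 2 = ‖V.starProjection s‖ ^ 2 + ‖s - V.starProjection s‖ ^ 2 := by
      have h5 : ⟪V.starProjection s, s - V.starProjection s⟫ = 0 := by
        have := V.starProjection_inner_eq_zero s (V.starProjection s)
          (V.starProjection_apply_mem s)
        rw [real_inner_comm]
        exact this
      have h6 := norm_add_sq_eq_norm_sq_add_norm_sq_real h5
      rw [add_sub_cancel] at h6
      simpa [sq] using h6
    rw [hs] at h4
    have h7 : ‖s - V.starProjection s‖ ^ 2 ≤ ε ^ 2 := pow_le_pow_left₀ (norm_nonneg _) h3 2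
    linarith
  refine h1.trans ?_
  have h8 := meas_ge_le_lintegral_div (μ := sphereProb E) hm.aemeasurable
    (ε := ENNReal.ofReal (1 - ε ^ 2)) (ENNReal.ofReal_pos.2 hpos).ne' ENNReal.ofReal_ne_top
  rw [moment_proj, div_eq_mul_inv] at h8
  exact h8

end sphere

section learner

variable {d N : ℕ}

/-- an output is close to at most one of two distant signals -/
theorem good_add_le (L : Learner (Vec d) N) {ε : ℝ} (t : ℕ) (q : Fin N) {s s' : Vec d}
    (hs : ‖s‖ = 1) (hs' : ‖s'‖ = 1) (h : 2 * ε < dist s s') :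
    L.good ε t q s + L.good ε t q s' ≤ 1 := by
  unfold Learner.good
  have hm : ∀ v : Vec d, MeasurableSet {z : Sph d | Real.arccos ⟪(z : Vec d), v⟫ ≤ ε} := fun v =>
    (isClosed_le (Real.continuous_arccos.comp (by fun_prop)) continuous_const).measurableSet
  have hd : Disjoint {z : Sph d | Real.arccos ⟪(z : Vec d), s⟫ ≤ ε}
      {z : Sph d | Real.arccos ⟪(z : Vec d), s'⟫ ≤ ε} := by
    rw [Set.disjoint_left]
    intro z hz hz'
    have hz1 : ‖(z : Vec d)‖ = 1 := by simp
    have h1 := base_dist_le hz1 hs hz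
    have h2 := base_dist_le hz1 hs' hz'
    have h3 := dist_triangle_left s s' (z : Vec d)
    linarith
  rw [← measure_union hd (hm s')]
  exact prob_le_one

theorem fam_add_le (L : Learner (Vec d) N) {ε : ℝ} (T : ℕ) (z : Fin N ⊕ (Fin T × Fin N))
    {s s' : Vec d} (hs : ‖s‖ = 1) (hs' : ‖s'‖ = 1) (h : 2 * ε < dist s s') :
    L.fam ε T 0 0 T z s + L.fam ε T 0 0 T z s' ≤ 1 := by
  rcases z with q | ⟨i, q⟩
  · exact good_add_le L _ q hs hs' h
  · exact good_add_le L _ q hs hs' h

theorem fam_le_one (L : Learner (Vec d) N) {ε : ℝ} (T : ℕ) (z : Fin N ⊕ (Fin T × Fin N))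
    (s : Vec d) : L.fam ε T 0 0 T z s ≤ 1 := by
  rcases z with q | ⟨i, q⟩
  · exact L.good_le_one _ _ q s
  · exact L.good_le_one _ _ q s

theorem measurable_fam (L : Learner (Vec d) N) {ε : ℝ} (T : ℕ) (z : Fin N ⊕ (Fin T × Fin N)) :
    Measurable (L.fam ε T 0 0 T z) := by
  rcases z with q | ⟨i, q⟩
  · exact L.measurable_good _ _ q
  · exact L.measurable_good _ _ q

theorem lab_reflection {n : ℕ} (G : Fin n → Vec d) (s : Vec d) :
    lab G ((Submodule.span ℝ (Set.range G)).reflection s) = lab G s := by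
  funext i
  unfold lab
  set V := Submodule.span ℝ (Set.range G) with hV
  have h1 : V.reflection (G i) = G i :=
    Submodule.reflection_mem_subspace_eq_self (Submodule.subset_span ⟨i, rfl⟩)
  calc ⟪G i, V.reflection s⟫ = ⟪V.reflection (G i), V.reflection s⟫ := by rw [h1]
    _ = ⟪G i, s⟫ := V.reflection.inner_map_map _ _

/-- the bound for fixed rows -/
theorem fixed_rows (hd : 1 ≤ d) (L : Learner (Vec d) N) {ε : ℝ} (hε0 : 0 ≤ ε) (hε1 : ε < 1)
    (T : ℕ) (k : Fin N ⊕ (Fin T × Fin N) → (Fin T → Vec d) × (Fin T → ℝ) → ℝ≥0∞)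
    (hk : ∀ z, Measurable (k z)) (hk1 : ∀ x, ∑ z, k z x ≤ 1) (G : Fin T → Vec d) :
    ∫⁻ s, ∑ z, k z (G, lab G s) * L.fam ε T 0 0 T z s ∂(sphereProb (Vec d)) ≤
      ENNReal.ofReal (1 / 2 + T / (2 * d * (1 - ε ^ 2))) := by
  have hne : Nonempty (Fin d) := ⟨⟨0, by omega⟩⟩
  have hnt : Nontrivial (Vec d) := inferInstance
  set V := Submodule.span ℝ (Set.range G) with hV
  have hVT : Module.finrank ℝ V ≤ T := by
    have := finrank_range_le_card (R := ℝ) G
    simpa [Set.finrank] using this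
  set F : Vec d → ℝ≥0∞ := fun s => ∑ z, k z (G, lab G s) * L.fam ε T 0 0 T z s with hF
  have hFm : Measurable F := by
    apply Finset.measurable_sum
    intro z _
    apply Measurable.mul
    · exact (hk z).comp (by unfold lab; fun_prop)
    · exact measurable_fam L T z
  have hpos : 0 < 1 - ε ^ 2 := by nlinarith
  have hinv := lintegral_sphereProb_comp V.reflection hFm
  set B : Set (Vec d) := {s | dist s (V.reflection s) ≤ 2 * ε} with hB
  have hBm : MeasurableSet B :=
    (isClosed_le (by fun_prop) continuous_const).measurableSet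
  have hpt : ∀ᵐ s ∂(sphereProb (Vec d)), F s + F (V.reflection s) ≤ 1 + B.indicator 1 s := by
    filter_upwards [ae_norm_eq_one (E := Vec d)] with s hs
    have hs' : ‖V.reflection s‖ = 1 := by rw [LinearIsometryEquiv.norm_map, hs]
    have h1 : F s + F (V.reflection s) = ∑ z, k z (G, lab G s) *
        (L.fam ε T 0 0 T z s + L.fam ε T 0 0 T z (V.reflection s)) := by
      simp only [hF]
      rw [← Finset.sum_add_distrib]
      refine Finset.sum_congr rfl fun z _ => ?_
      rw [hV, lab_reflection, mul_add]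
    rw [h1]
    by_cases hsB : s ∈ B
    · rw [Set.indicator_of_mem hsB]
      calc ∑ z, k z (G, lab G s) *
          (L.fam ε T 0 0 T z s + L.fam ε T 0 0 T z (V.reflection s))
          ≤ ∑ z, k z (G, lab G s) * (1 + 1) := by
            gcongr with z _
            · exact fam_le_one L T z s
            · exact fam_le_one L T z _
        _ = (∑ z, k z (G, lab G s)) * (1 + 1) := by rw [Finset.sum_mul]
        _ ≤ 1 * (1 + 1) := by gcongr; exact hk1 _
        _ = 1 + (1 : Vec d → ℝ≥0∞) s := by simp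
    · rw [Set.indicator_of_notMem hsB, add_zero]
      have hfar : 2 * ε < dist s (V.reflection s) := not_le.1 hsB
      calc ∑ z, k z (G, lab G s) *
          (L.fam ε T 0 0 T z s + L.fam ε T 0 0 T z (V.reflection s))
          ≤ ∑ z, k z (G, lab G s) * 1 := by
            gcongr with z _
            exact fam_add_le L T z hs hs' hfar
        _ ≤ 1 := by simpa only [mul_one] using hk1 _
  have h2 : 2 * ∫⁻ s, F s ∂(sphereProb (Vec d)) ≤ 1 + sphereProb (Vec d) B := by
    calc 2 * ∫⁻ s, F s ∂(sphereProb (Vec d))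
        = ∫⁻ s, F s ∂(sphereProb (Vec d)) + ∫⁻ s, F (V.reflection s) ∂(sphereProb (Vec d)) := by
          rw [hinv, two_mul]
      _ = ∫⁻ s, (F s + F (V.reflection s)) ∂(sphereProb (Vec d)) :=
          (lintegral_add_left hFm _).symm
      _ ≤ ∫⁻ s, (1 + B.indicator 1 s) ∂(sphereProb (Vec d)) := lintegral_mono_ae hpt
      _ = 1 + sphereProb (Vec d) B := by
          rw [lintegral_add_left measurable_const, lintegral_one, measure_univ,
            lintegral_indicator_one hBm]
  have h3 : sphereProb (Vec d) B ≤ ENNReal.ofReal (T / (d * (1 - ε ^ 2))) := by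
    refine (reflection_far V hε0 hε1).trans ?_
    rw [finrank_euclideanSpace_fin]
    have hd0 : (0 : ℝ) < d := by exact_mod_cast hd
    have h4 : ENNReal.ofReal (T / (d * (1 - ε ^ 2))) =
        (T : ℝ≥0∞) * ((d : ℕ) : ℝ≥0∞)⁻¹ * (ENNReal.ofReal (1 - ε ^ 2))⁻¹ := by
      rw [ENNReal.ofReal_div_of_pos (by positivity), ENNReal.ofReal_natCast,
        ENNReal.ofReal_mul hd0.le, ENNReal.ofReal_natCast, div_eq_mul_inv,
        ENNReal.mul_inv (Or.inr ENNReal.ofReal_ne_top) (Or.inl (ENNReal.natCast_ne_top d)),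
        mul_assoc]
    rw [h4]
    gcongr
  have h5 : 2 * ∫⁻ s, F s ∂(sphereProb (Vec d)) ≤
      2 * ENNReal.ofReal (1 / 2 + T / (2 * d * (1 - ε ^ 2))) := by
    refine h2.trans ((add_le_add_right h3 1).trans (le_of_eq ?_))
    have h6 : (2 : ℝ≥0∞) = ENNReal.ofReal 2 := by simp
    have hd0 : (0 : ℝ) < d := by exact_mod_cast hd
    rw [h6, ← ENNReal.ofReal_mul (by norm_num), ← ENNReal.ofReal_one,
      ← ENNReal.ofReal_add (by norm_num) (by positivity)]
    congr 1
    field_simp
  exact (ENNReal.mul_le_mul_iff_right (by norm_num) (by norm_num)).1 h5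

/-- **Unlimited memory**: whatever the number of states, with horizon `T` the success probability is
at most `1/2 + T / (2 d (1 - ε²))`. -/
theorem success_unlimited (hd : 1 ≤ d) (L : Learner (Vec d) N) {ε : ℝ} (hε0 : 0 ≤ ε) (hε1 : ε < 1)
    (T : ℕ) : ∫⁻ s : Sph d, ∫⁻ q, L.win ε T 0 q (s : Vec d) ∂L.init ∂(unifSphere (Vec d)) ≤
      ENNReal.ofReal (1 / 2 + T / (2 * d * (1 - ε ^ 2))) := by
  have hne : Nonempty (Fin d) := ⟨⟨0, by omega⟩⟩
  have hnt : Nontrivial (Vec d) := inferInstance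
  apply L.success_le
  intro q
  obtain ⟨k, hk, hk1, hkw⟩ := L.rep_win ε T 0 0 T le_rfl q
  rw [zero_add] at hkw
  simp_rw [hkw]
  have hmeas : Measurable fun p : Vec d × (Fin T → Vec d) =>
      ∑ z, k z (p.2, lab p.2 p.1) * L.fam ε T 0 0 T z p.1 := by
    apply Finset.measurable_sum
    intro z _
    apply Measurable.mul
    · exact (hk z).comp (by unfold lab; fun_prop)
    · exact (measurable_fam L T z).comp measurable_fst
  rw [lintegral_lintegral_swap hmeas.aemeasurable]
  calc ∫⁻ G, ∫⁻ s, ∑ z, k z (G, lab G s) * L.fam ε T 0 0 T z s ∂(sphereProb (Vec d))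
        ∂(rows (Vec d) T)
      ≤ ∫⁻ _, ENNReal.ofReal (1 / 2 + T / (2 * d * (1 - ε ^ 2))) ∂(rows (Vec d) T) :=
        lintegral_mono fun G => fixed_rows hd L hε0 hε1 T k hk hk1 G
    _ = ENNReal.ofReal (1 / 2 + T / (2 * d * (1 - ε ^ 2))) := by
        rw [lintegral_const, measure_univ, mul_one]

theorem successProb_unlimited (hd : 1 ≤ d) (L : Learner (Vec d) N) {ε : ℝ} (hε0 : 0 ≤ ε)
    (hε1 : ε < 1) (T : ℕ) :
    L.successProb T ε ≤ ENNReal.ofReal (1 / 2 + T / (2 * d * (1 - ε ^ 2))) :=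
  success_unlimited hd L hε0 hε1 T

/-- a learner which succeeds reads at least `d / 4` samples, for every size of the memory -/
theorem unlimited (hd : 1 ≤ d) {T : ℕ} {ε : ℝ} (hε0 : 0 ≤ ε) (hε : ε ≤ 1 / 2)
    (L : Learner (EuclideanSpace ℝ (Fin d)) N) (hL : L.Succeeds T ε) : (d : ℝ) / 4 ≤ T := by
  have hd0 : (0 : ℝ) < d := by exact_mod_cast hd
  have h1 := hL.trans (success_unlimited hd L hε0 (by linarith) T)
  have h23 : ENNReal.ofReal (2 / 3) = 2 / 3 := by
    rw [ENNReal.ofReal_div_of_pos (by norm_num)]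
    simp
  have hpos : 3 / 4 ≤ 1 - ε ^ 2 := by nlinarith
  have hpos0 : 0 < 1 - ε ^ 2 := by linarith
  rw [← h23, ENNReal.ofReal_le_ofReal_iff (by positivity)] at h1
  have h2 : (1 : ℝ) / 6 ≤ T / (2 * d * (1 - ε ^ 2)) := by linarith
  rw [le_div_iff₀ (by positivity)] at h2
  nlinarith

end learner

end P309.H596
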